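import Crest.Agent.Helper26.OT.ChainMap

/-!
# Row 82 (S0109), package D (safety copy of the core chain), part 4: the statement of S0109
from the discrete theory `(DT)` and the interpolation inequality `(A)`.

`s0109_of_discrete_safety` has exactly the statement of
`Crest.Agent.Helper66.OT.s0109_of_discrete_stmt`.
-/

set_option autoImplicit false
open MeasureTheory Filter Topology
open scoped ENNReal NNReal
open Crest.AnalysisR.OT Crest.Agent.Helper66.OT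

namespace Crest.Agent.Helper26.OT

section
variable {d : ℕ} {K Y : Set (EuclideanSpace ℝ (Fin d))} {M C₁ CA : ℝ}
  {pot : Measure (EuclideanSpace ℝ (Fin d)) → EuclideanSpace ℝ (Fin d) → ℝ}
  {lag : Measure (EuclideanSpace ℝ (Fin d)) → EuclideanSpace ℝ (Fin d) →
    EuclideanSpace ℝ (Fin d)}

/-- A coupling of probability measures is a probability measure. -/
theorem isProbabilityMeasure_of_coupling (μ ν : Measure (EuclideanSpace ℝ (Fin d)))
    [IsProbabilityMeasure μ]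
    (π : Measure (EuclideanSpace ℝ (Fin d) × EuclideanSpace ℝ (Fin d)))
    (hπ : IsPairCoupling μ ν π) : IsProbabilityMeasure π := by
  constructor
  have h : (π.map Prod.fst) Set.univ = 1 := by rw [hπ.1]; exact measure_univ
  rwa [Measure.map_apply measurable_fst MeasurableSet.univ, Set.preimage_univ] at h

/-- A coupling of measures carried by `Y` is carried by `Y ×ˢ Y`. -/
theorem ae_mem_of_coupling (hYm : MeasurableSet Y) (μ ν : Measure (EuclideanSpace ℝ (Fin d)))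
    (hμY : μ Yᶜ = 0) (hνY : ν Yᶜ = 0)
    (π : Measure (EuclideanSpace ℝ (Fin d) × EuclideanSpace ℝ (Fin d)))
    (hπ : IsPairCoupling μ ν π) : ∀ᵐ p ∂π, p.1 ∈ Y ∧ p.2 ∈ Y := by
  have h1 : π (Prod.fst ⁻¹' Yᶜ) = 0 := by
    rw [← Measure.map_apply measurable_fst hYm.compl, hπ.1]; exact hμY
  have h2 : π (Prod.snd ⁻¹' Yᶜ) = 0 := by
    rw [← Measure.map_apply measurable_snd hYm.compl, hπ.2]; exact hνY
  have h1' : ∀ᵐ p ∂π, p.1 ∈ Y := by rw [ae_iff]; exact h1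
  have h2' : ∀ᵐ p ∂π, p.2 ∈ Y := by rw [ae_iff]; exact h2
  filter_upwards [h1', h2'] with p hp1 hp2
  exact ⟨hp1, hp2⟩

/-- A map pushing `ρ` to a measure carried by `Y` takes its values in `Y` a.e. -/
theorem ae_mem_of_map_eq (hYm : MeasurableSet Y) (ρ μ : Measure (EuclideanSpace ℝ (Fin d)))
    (hμY : μ Yᶜ = 0) (T : EuclideanSpace ℝ (Fin d) → EuclideanSpace ℝ (Fin d))
    (hT : Measurable T) (hpush : ρ.map T = μ) : ∀ᵐ x ∂ρ, T x ∈ Y := by
  have h1 : ρ (T ⁻¹' Yᶜ) = 0 := by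
    rw [← Measure.map_apply hT hYm.compl, hpush]; exact hμY
  rw [ae_iff]; exact h1

/-- The squared distance is integrable against a coupling of measures carried by a bounded
set. -/
theorem integrable_sq_dist_of_coupling (hYm : MeasurableSet Y) (hM : ∀ y ∈ Y, ‖y‖ ≤ M)
    (μ ν : Measure (EuclideanSpace ℝ (Fin d))) [IsProbabilityMeasure μ] (hμY : μ Yᶜ = 0)
    (hνY : ν Yᶜ = 0) (π : Measure (EuclideanSpace ℝ (Fin d) × EuclideanSpace ℝ (Fin d)))
    (hπ : IsPairCoupling μ ν π) :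
    Integrable (fun p : EuclideanSpace ℝ (Fin d) × EuclideanSpace ℝ (Fin d) =>
      ‖p.1 - p.2‖ ^ 2) π := by
  have : IsProbabilityMeasure π := isProbabilityMeasure_of_coupling μ ν π hπ
  have hmeas : Measurable fun p : EuclideanSpace ℝ (Fin d) × EuclideanSpace ℝ (Fin d) =>
      ‖p.1 - p.2‖ ^ 2 := by fun_prop
  refine Integrable.of_bound hmeas.aestronglyMeasurable ((2 * M) ^ 2) ?_
  filter_upwards [ae_mem_of_coupling hYm μ ν hμY hνY π hπ] with p hp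
  rw [Real.norm_eq_abs, abs_of_nonneg (by positivity)]
  have h1 : ‖p.1 - p.2‖ ≤ 2 * M := by
    calc ‖p.1 - p.2‖ ≤ ‖p.1‖ + ‖p.2‖ := norm_sub_le _ _
      _ ≤ 2 * M := by
        have := hM _ hp.1
        have := hM _ hp.2
        linarith
  exact pow_le_pow_left₀ (norm_nonneg _) h1 2

/-- `(DT-b)` along a coupling, for one quantiser of mesh `ε`. -/
theorem pot_pair_bound (hDT : DiscreteTheory K M C₁ pot lag) (hC₁ : 0 ≤ C₁)
    (hM : ∀ y ∈ Y, ‖y‖ ≤ M) (hYm : MeasurableSet Y)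
    (μ ν : Measure (EuclideanSpace ℝ (Fin d))) (hμ : IsProbabilityOn Y μ)
    (hν : IsProbabilityOn Y ν)
    (π : Measure (EuclideanSpace ℝ (Fin d) × EuclideanSpace ℝ (Fin d)))
    (hπ : IsPairCoupling μ ν π)
    (q : SimpleFunc (EuclideanSpace ℝ (Fin d)) (EuclideanSpace ℝ (Fin d)))
    (hqY : ∀ x, q x ∈ Y) (ε : ℝ) (hε : 0 ≤ ε) (hqε : ∀ y ∈ Y, dist (q y) y ≤ ε) :
    ∫ x, (pot (μ.map q) x - pot (ν.map q) x) ^ 2 ∂(uniformProbOn K)
      ≤ C₁ * (∫ p, ‖p.1 - p.2‖ ^ 2 ∂π + 8 * M * ε + 4 * ε ^ 2) := by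
  have hμp : IsProbabilityMeasure μ := hμ.1
  have hπp : IsProbabilityMeasure π := isProbabilityMeasure_of_coupling μ ν π hπ
  set h : SimpleFunc (EuclideanSpace ℝ (Fin d) × EuclideanSpace ℝ (Fin d))
      (EuclideanSpace ℝ (Fin d) × EuclideanSpace ℝ (Fin d)) :=
    (q.comp Prod.fst measurable_fst).pair (q.comp Prod.snd measurable_snd) with hh
  have h1 : ∀ ω, (h ω).1 = q ω.1 := fun ω => by simp [hh, SimpleFunc.pair_apply]
  have h2 : ∀ ω, (h ω).2 = q ω.2 := fun ω => by simp [hh, SimpleFunc.pair_apply]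
  have key := hDT.simple_bound π h (fun ω => by
    rw [h1, h2]; exact ⟨hM _ (hqY _), hM _ (hqY _)⟩)
  have e1 : π.map (fun ω => (h ω).1) = μ.map q := by
    have : (fun ω => (h ω).1) = q ∘ Prod.fst := by funext ω; rw [h1]; rfl
    rw [this, ← Measure.map_map q.measurable measurable_fst, hπ.1]
  have e2 : π.map (fun ω => (h ω).2) = ν.map q := by
    have : (fun ω => (h ω).2) = q ∘ Prod.snd := by funext ω; rw [h2]; rfl
    rw [this, ← Measure.map_map q.measurable measurable_snd, hπ.2]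
  rw [e1, e2] at key
  refine key.trans (mul_le_mul_of_nonneg_left ?_ hC₁)
  have hae := ae_mem_of_coupling hYm μ ν hμ.2 hν.2 π hπ
  have hle : ∀ᵐ p ∂π, ‖(h p).1 - (h p).2‖ ^ 2 ≤ ‖p.1 - p.2‖ ^ 2 + (8 * M * ε + 4 * ε ^ 2) := by
    filter_upwards [hae] with p hp
    rw [h1, h2]
    have h3 : ‖q p.1 - q p.2‖ ≤ ‖p.1 - p.2‖ + 2 * ε := by
      have ht := dist_triangle4 (q p.1) p.1 p.2 (q p.2)
      rw [dist_eq_norm (q p.1) (q p.2), dist_eq_norm p.1 p.2, dist_comm p.2 (q p.2)] at ht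
      have := hqε p.1 hp.1
      have := hqε p.2 hp.2
      linarith
    have h4 : ‖p.1 - p.2‖ ≤ 2 * M := by
      calc ‖p.1 - p.2‖ ≤ ‖p.1‖ + ‖p.2‖ := norm_sub_le _ _
        _ ≤ 2 * M := by
          have := hM _ hp.1
          have := hM _ hp.2
          linarith
    have h5 : 0 ≤ ‖q p.1 - q p.2‖ := norm_nonneg _
    have h6 : 0 ≤ ‖p.1 - p.2‖ := norm_nonneg _
    nlinarith
  have hint1 : Integrable (fun p => ‖(h p).1 - (h p).2‖ ^ 2) π := by
    have hmeas : Measurable fun p => ‖(h p).1 - (h p).2‖ ^ 2 :=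
      ((h.measurable.fst.sub h.measurable.snd).norm).pow_const 2
    refine Integrable.of_bound hmeas.aestronglyMeasurable ((2 * M) ^ 2) ?_
    refine Eventually.of_forall fun p => ?_
    rw [Real.norm_eq_abs, abs_of_nonneg (by positivity), h1, h2]
    have h3 : ‖q p.1 - q p.2‖ ≤ 2 * M := by
      calc ‖q p.1 - q p.2‖ ≤ ‖q p.1‖ + ‖q p.2‖ := norm_sub_le _ _
        _ ≤ 2 * M := by
          have := hM _ (hqY p.1)
          have := hM _ (hqY p.2)
          linarith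
    exact pow_le_pow_left₀ (norm_nonneg _) h3 2
  have hint2 := integrable_sq_dist_of_coupling hYm hM μ ν hμ.2 hν.2 π hπ
  calc ∫ p, ‖(h p).1 - (h p).2‖ ^ 2 ∂π
      ≤ ∫ p, (‖p.1 - p.2‖ ^ 2 + (8 * M * ε + 4 * ε ^ 2)) ∂π :=
        integral_mono_ae hint1 (hint2.add (integrable_const _)) hle
    _ = ∫ p, ‖p.1 - p.2‖ ^ 2 ∂π + 8 * M * ε + 4 * ε ^ 2 := by
        rw [integral_add hint2 (integrable_const _)]
        simp
        ring

/-- Elementary: if `a`, `b` are `η`-close to `p`, `r`, then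
`(p - r)² ≤ 2 (a - b)² + 8 η²`. -/
theorem sq_sub_le_of_abs_sub_le {a b p r η : ℝ} (h1 : |a - p| ≤ η) (h2 : |b - r| ≤ η) :
    (p - r) ^ 2 ≤ 2 * (a - b) ^ 2 + 8 * η ^ 2 := by
  have h1' := abs_le.mp h1
  have h2' := abs_le.mp h2
  have he1 : -(2 * η) ≤ (a - p) - (b - r) := by linarith
  have he2 : (a - p) - (b - r) ≤ 2 * η := by linarith
  have he : ((a - p) - (b - r)) ^ 2 ≤ 4 * η ^ 2 := by nlinarith
  nlinarith [sq_nonneg ((a - b) + ((a - p) - (b - r)))]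

/-- `L²(K)` distance of two limit potentials, bounded by the cost of any coupling. -/
theorem limit_pot_sq_le (hKc : IsCompact K) (hKi : (interior K).Nonempty)
    (hDT : DiscreteTheory K M C₁ pot lag) (hC₁ : 0 ≤ C₁) (hM0 : 0 ≤ M)
    (hM : ∀ y ∈ Y, ‖y‖ ≤ M) (hYm : MeasurableSet Y)
    (q : ℕ → SimpleFunc (EuclideanSpace ℝ (Fin d)) (EuclideanSpace ℝ (Fin d)))
    (hqY : ∀ n x, q n x ∈ Y) (hqε : ∀ n, ∀ y ∈ Y, dist (q n y) y ≤ (1 / 8 : ℝ) ^ n)
    (μ ν : Measure (EuclideanSpace ℝ (Fin d))) (hμ : IsProbabilityOn Y μ)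
    (hν : IsProbabilityOn Y ν)
    (π : Measure (EuclideanSpace ℝ (Fin d) × EuclideanSpace ℝ (Fin d)))
    (hπ : IsPairCoupling μ ν π) (φμ φν : EuclideanSpace ℝ (Fin d) → ℝ)
    (hφμc : ContinuousOn φμ K) (hφνc : ContinuousOn φν K)
    (hμunif : ∀ η > 0, ∃ N₀ : ℕ, ∀ n ≥ N₀, ∀ x ∈ K, |pot (μ.map (q n)) x - φμ x| ≤ η)
    (hνunif : ∀ η > 0, ∃ N₀ : ℕ, ∀ n ≥ N₀, ∀ x ∈ K, |pot (ν.map (q n)) x - φν x| ≤ η) :
    ∫ x in K, (φμ x - φν x) ^ 2
      ≤ 2 * (volume K).toReal * C₁ * ∫ p, ‖p.1 - p.2‖ ^ 2 ∂π := by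
  have hμp : IsProbabilityMeasure μ := hμ.1
  have hνp : IsProbabilityMeasure ν := hν.1
  set V := (volume K).toReal with hVdef
  have hV : 0 < V := ENNReal.toReal_pos (volK_ne_zero hKi) (volK_ne_top hKc)
  set cost := ∫ p, ‖p.1 - p.2‖ ^ 2 ∂π with hcost
  have hstep : ∀ η : ℝ, 0 < η → ∫ x in K, (φμ x - φν x) ^ 2
      ≤ 2 * V * (C₁ * (cost + 8 * M * η + 4 * η ^ 2)) + 8 * η ^ 2 * V := by
    intro η hη
    obtain ⟨N1, hN1⟩ := hμunif η hη
    obtain ⟨N2, hN2⟩ := hνunif η hη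
    obtain ⟨N3, hN3⟩ := exists_pow_lt_of_lt_one hη (show (1 / 8 : ℝ) < 1 by norm_num)
    set n := max N1 (max N2 N3) with hn
    have hn1 : N1 ≤ n := le_max_left _ _
    have hn2 : N2 ≤ n := (le_max_left _ _).trans (le_max_right _ _)
    have hn3 : N3 ≤ n := (le_max_right _ _).trans (le_max_right _ _)
    have hε0 : (0 : ℝ) ≤ (1 / 8 : ℝ) ^ n := by positivity
    have hεη : (1 / 8 : ℝ) ^ n ≤ η :=
      (pow_le_pow_of_le_one (by norm_num) (by norm_num) hn3).trans hN3.le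
    have hpair := pot_pair_bound hDT hC₁ hM hYm μ ν hμ hν π hπ (q n) (hqY n) ((1 / 8 : ℝ) ^ n)
      hε0 (hqε n)
    have hpropsμ := hDT.simple_props μ (q n) (fun ω => hM _ (hqY n ω))
    have hpropsν := hDT.simple_props ν (q n) (fun ω => hM _ (hqY n ω))
    have hcμ : ContinuousOn (pot (μ.map (q n))) K :=
      continuousOn_of_abs_sub_le hM0 (abs_sub_le_of_subgrad hpropsμ.2.2.1 hpropsμ.2.2.2.1)
    have hcν : ContinuousOn (pot (ν.map (q n))) K :=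
      continuousOn_of_abs_sub_le hM0 (abs_sub_le_of_subgrad hpropsν.2.2.1 hpropsν.2.2.2.1)
    have hpt : ∀ x ∈ K, (φμ x - φν x) ^ 2
        ≤ 2 * (pot (μ.map (q n)) x - pot (ν.map (q n)) x) ^ 2 + 8 * η ^ 2 := by
      intro x hx
      exact sq_sub_le_of_abs_sub_le (hN1 n hn1 x hx) (hN2 n hn2 x hx)
    have hi1 : IntegrableOn (fun x => (φμ x - φν x) ^ 2) K volume :=
      ((hφμc.sub hφνc).pow 2).integrableOn_compact hKc
    have hi2 : IntegrableOn (fun x => (pot (μ.map (q n)) x - pot (ν.map (q n)) x) ^ 2) K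
        volume := ((hcμ.sub hcν).pow 2).integrableOn_compact hKc
    have hi3 : IntegrableOn (fun _ : EuclideanSpace ℝ (Fin d) => 8 * η ^ 2) K volume :=
      integrableOn_const (volK_ne_top hKc)
    have hi23 : IntegrableOn
        (fun x => 2 * (pot (μ.map (q n)) x - pot (ν.map (q n)) x) ^ 2 + 8 * η ^ 2) K volume :=
      (hi2.const_mul 2).add hi3
    have hsplit : (∫ x in K, (2 * (pot (μ.map (q n)) x - pot (ν.map (q n)) x) ^ 2 + 8 * η ^ 2))
        = 2 * (∫ x in K, (pot (μ.map (q n)) x - pot (ν.map (q n)) x) ^ 2) + 8 * η ^ 2 * V := by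
      have hs1 : (∫ x in K, (2 * (pot (μ.map (q n)) x - pot (ν.map (q n)) x) ^ 2 + 8 * η ^ 2))
          = (∫ x in K, 2 * (pot (μ.map (q n)) x - pot (ν.map (q n)) x) ^ 2)
            + (∫ _x in K, 8 * η ^ 2) := integral_add (hi2.const_mul 2) hi3
      have hs2 : (∫ x in K, 2 * (pot (μ.map (q n)) x - pot (ν.map (q n)) x) ^ 2)
          = 2 * (∫ x in K, (pot (μ.map (q n)) x - pot (ν.map (q n)) x) ^ 2) :=
        integral_const_mul 2 _
      have hs3 : (∫ _x in K, (8 * η ^ 2 : ℝ)) = 8 * η ^ 2 * V := by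
        rw [setIntegral_const, Measure.real, smul_eq_mul]; ring
      rw [hs1, hs2, hs3]
    have hrho : (∫ x in K, (pot (μ.map (q n)) x - pot (ν.map (q n)) x) ^ 2)
        = V * (∫ x, (pot (μ.map (q n)) x - pot (ν.map (q n)) x) ^ 2 ∂(uniformProbOn K)) :=
      setIntegral_eq_rho hKc hKi _
    calc ∫ x in K, (φμ x - φν x) ^ 2
        ≤ ∫ x in K, (2 * (pot (μ.map (q n)) x - pot (ν.map (q n)) x) ^ 2 + 8 * η ^ 2) :=
          setIntegral_mono_on hi1 hi23 hKc.measurableSet hpt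
      _ = 2 * (∫ x in K, (pot (μ.map (q n)) x - pot (ν.map (q n)) x) ^ 2) + 8 * η ^ 2 * V :=
          hsplit
      _ = 2 * (V * (∫ x, (pot (μ.map (q n)) x - pot (ν.map (q n)) x) ^ 2 ∂(uniformProbOn K)))
            + 8 * η ^ 2 * V := by rw [hrho]
      _ ≤ 2 * (V * (C₁ * (cost + 8 * M * (1 / 8 : ℝ) ^ n + 4 * ((1 / 8 : ℝ) ^ n) ^ 2)))
            + 8 * η ^ 2 * V := by gcongr
      _ ≤ 2 * V * (C₁ * (cost + 8 * M * η + 4 * η ^ 2)) + 8 * η ^ 2 * V := by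
          have h3 : ((1 / 8 : ℝ) ^ n) ^ 2 ≤ η ^ 2 := pow_le_pow_left₀ hε0 hεη 2
          have h4 : C₁ * (cost + 8 * M * (1 / 8 : ℝ) ^ n + 4 * ((1 / 8 : ℝ) ^ n) ^ 2)
              ≤ C₁ * (cost + 8 * M * η + 4 * η ^ 2) := by
            refine mul_le_mul_of_nonneg_left ?_ hC₁
            nlinarith
          nlinarith
  have hcont : Continuous fun η : ℝ =>
      2 * V * (C₁ * (cost + 8 * M * η + 4 * η ^ 2)) + 8 * η ^ 2 * V := by fun_prop
  have ht : Tendsto (fun η : ℝ => 2 * V * (C₁ * (cost + 8 * M * η + 4 * η ^ 2)) + 8 * η ^ 2 * V)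
      (𝓝[>] (0 : ℝ)) (𝓝 (2 * V * (C₁ * (cost + 8 * M * 0 + 4 * 0 ^ 2)) + 8 * 0 ^ 2 * V)) :=
    (hcont.tendsto 0).mono_left nhdsWithin_le_nhds
  have hfin := ge_of_tendsto ht (eventually_nhdsWithin_of_forall fun η hη => hstep η hη)
  calc ∫ x in K, (φμ x - φν x) ^ 2
      ≤ 2 * V * (C₁ * (cost + 8 * M * 0 + 4 * 0 ^ 2)) + 8 * 0 ^ 2 * V := hfin
    _ = 2 * V * C₁ * cost := by ring

end

/-- **S0109 from `(DT)` and `(A)`** (safety copy; same statement as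
`Crest.Agent.Helper66.OT.s0109_of_discrete_stmt`). -/
theorem s0109_of_discrete_safety
    (d : ℕ) (K : Set (EuclideanSpace ℝ (Fin d))) (hKc : IsCompact K) (hKv : Convex ℝ K)
    (hKi : (interior K).Nonempty) (Y : Set (EuclideanSpace ℝ (Fin d))) (hYc : IsCompact Y)
    (hYn : Y.Nonempty)
    (hA : ∀ M : ℝ, 0 ≤ M → ∃ C : ℝ, 0 ≤ C ∧ InterpA K M C)
    (hDT : ∀ M : ℝ, 0 ≤ M → ∃ C₁ : ℝ, 0 ≤ C₁ ∧ ∃ pot lag, DiscreteTheory K M C₁ pot lag) :
    ∃ C : ℝ≥0, ∀ μ ν : Measure (EuclideanSpace ℝ (Fin d)), IsProbabilityOn Y μ →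
      IsProbabilityOn Y ν →
      ∀ Tμ Tν : EuclideanSpace ℝ (Fin d) → EuclideanSpace ℝ (Fin d),
        IsOptimalMap (uniformProbOn K) μ Tμ → IsOptimalMap (uniformProbOn K) ν Tν →
        ∀ π : Measure (EuclideanSpace ℝ (Fin d) × EuclideanSpace ℝ (Fin d)),
          IsPairCoupling μ ν π →
          ∫⁻ x, ‖Tμ x - Tν x‖ₑ ^ 2 ∂(uniformProbOn K) ≤ C * quadCost π ^ (1 / 3 : ℝ) := by
  -- the bound on `Y`
  obtain ⟨M₀, hM₀⟩ := hYc.isBounded.exists_norm_le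
  set M : ℝ := max M₀ 0 with hMdef
  have hM0 : 0 ≤ M := le_max_right _ _
  have hM : ∀ y ∈ Y, ‖y‖ ≤ M := fun y hy => (hM₀ y hy).trans (le_max_left _ _)
  obtain ⟨CA, hCA, hA'⟩ := hA M hM0
  obtain ⟨C₁, hC₁, pot, lag, hDT'⟩ := hDT M hM0
  have hYm : MeasurableSet Y := hYc.measurableSet
  -- quantisers
  have hq : ∀ n : ℕ, ∃ q : SimpleFunc (EuclideanSpace ℝ (Fin d)) (EuclideanSpace ℝ (Fin d)),
      (∀ x, q x ∈ Y) ∧ ∀ y ∈ Y, dist (q y) y ≤ (1 / 8 : ℝ) ^ n := fun n =>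
    exists_quantiser Y hYc hYn ((1 / 8 : ℝ) ^ n) (by positivity)
  choose q hqY hqε using hq
  set V := (volume K).toReal with hVdef
  have hV : 0 < V := ENNReal.toReal_pos (volK_ne_zero hKi) (volK_ne_top hKc)
  have hρ : IsProbabilityMeasure (uniformProbOn K) := rho_prob hKc hKi
  set a : ℝ := CA * (2 * V * C₁) ^ (1 / 3 : ℝ) with ha
  have ha0 : 0 ≤ a := by positivity
  refine ⟨Real.toNNReal (V⁻¹ * a), ?_⟩
  intro μ ν hμ hν Tμ Tν hTμ hTν π hπ
  have hμp : IsProbabilityMeasure μ := hμ.1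
  have hπp : IsProbabilityMeasure π := isProbabilityMeasure_of_coupling μ ν π hπ
  obtain ⟨φμ, hφμc, hμunif, hμsub⟩ :=
    exists_limit_potential hKc hKv hKi hYc hA' hCA hDT' hC₁ hM0 hM q hqY hqε μ hμ
  obtain ⟨φν, hφνc, hνunif, hνsub⟩ :=
    exists_limit_potential hKc hKv hKi hYc hA' hCA hDT' hC₁ hM0 hM q hqY hqε ν hν
  set cost := ∫ p, ‖p.1 - p.2‖ ^ 2 ∂π with hcost
  have hcost0 : 0 ≤ cost := integral_nonneg fun p => by positivity
  have hpot := limit_pot_sq_le hKc hKi hDT' hC₁ hM0 hM hYm q hqY hqε μ ν hμ hν π hπ φμ φν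
    hφμc hφνc hμunif hνunif
  -- a.e. bounds on the optimal maps
  have hTμY : ∀ᵐ x ∂(uniformProbOn K), Tμ x ∈ Y :=
    ae_mem_of_map_eq hYm _ μ hμ.2 Tμ hTμ.1 hTμ.2.1
  have hTνY : ∀ᵐ x ∂(uniformProbOn K), Tν x ∈ Y :=
    ae_mem_of_map_eq hYm _ ν hν.2 Tν hTν.1 hTν.2.1
  -- the interpolation inequality
  have hI := hA' φμ φν Tμ Tν hφμc hφνc hTμ.1 hTν.1
    ((rho_ae_iff hKc).mp (hTμY.mono fun x hx => hM _ hx))
    ((rho_ae_iff hKc).mp (hTνY.mono fun x hx => hM _ hx))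
    ((rho_ae_iff hKc).mp (hμsub Tμ hTμ)) ((rho_ae_iff hKc).mp (hνsub Tν hTν))
  have hI0 : 0 ≤ ∫ x in K, (φμ x - φν x) ^ 2 := integral_nonneg fun x => sq_nonneg _
  have hreal : ∫ x in K, ‖Tμ x - Tν x‖ ^ 2 ≤ a * cost ^ (1 / 3 : ℝ) := by
    calc ∫ x in K, ‖Tμ x - Tν x‖ ^ 2
        ≤ CA * (∫ x in K, (φμ x - φν x) ^ 2) ^ (1 / 3 : ℝ) := hI
      _ ≤ CA * (2 * V * C₁ * cost) ^ (1 / 3 : ℝ) := by
          gcongr
      _ = a * cost ^ (1 / 3 : ℝ) := by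
          rw [ha, Real.mul_rpow (by positivity) hcost0]
          ring
  -- conversion to `ℝ≥0∞`
  have hint : Integrable (fun x => ‖Tμ x - Tν x‖ ^ 2) (uniformProbOn K) := by
    have hmeas : Measurable fun x => ‖Tμ x - Tν x‖ ^ 2 :=
      ((hTμ.1.sub hTν.1).norm).pow_const 2
    refine Integrable.of_bound hmeas.aestronglyMeasurable ((2 * M) ^ 2) ?_
    filter_upwards [hTμY, hTνY] with x hx1 hx2
    rw [Real.norm_eq_abs, abs_of_nonneg (by positivity)]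
    have h1 : ‖Tμ x - Tν x‖ ≤ 2 * M := by
      calc ‖Tμ x - Tν x‖ ≤ ‖Tμ x‖ + ‖Tν x‖ := norm_sub_le _ _
        _ ≤ 2 * M := by
          have := hM _ hx1
          have := hM _ hx2
          linarith
    exact pow_le_pow_left₀ (norm_nonneg _) h1 2
  have e1 : ∫⁻ x, ‖Tμ x - Tν x‖ₑ ^ 2 ∂(uniformProbOn K)
      = ENNReal.ofReal (∫ x, ‖Tμ x - Tν x‖ ^ 2 ∂(uniformProbOn K)) := by
    rw [ofReal_integral_eq_lintegral_ofReal hint (Eventually.of_forall fun x => by positivity)]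
    refine lintegral_congr fun x => ?_
    rw [ENNReal.ofReal_pow (norm_nonneg _), ofReal_norm]
  have e2 : quadCost π = ENNReal.ofReal cost := by
    have hint2 := integrable_sq_dist_of_coupling hYm hM μ ν hμ.2 hν.2 π hπ
    rw [hcost, ofReal_integral_eq_lintegral_ofReal hint2
      (Eventually.of_forall fun p => by positivity)]
    unfold quadCost
    refine lintegral_congr fun p => ?_
    rw [ENNReal.ofReal_pow (norm_nonneg _), ofReal_norm]
  have e3 : ∫ x, ‖Tμ x - Tν x‖ ^ 2 ∂(uniformProbOn K) ≤ V⁻¹ * a * cost ^ (1 / 3 : ℝ) := by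
    rw [rho_integral]
    calc V⁻¹ * ∫ x in K, ‖Tμ x - Tν x‖ ^ 2 ≤ V⁻¹ * (a * cost ^ (1 / 3 : ℝ)) :=
          mul_le_mul_of_nonneg_left hreal (inv_nonneg.mpr hV.le)
      _ = V⁻¹ * a * cost ^ (1 / 3 : ℝ) := by ring
  rw [e1, e2]
  calc ENNReal.ofReal (∫ x, ‖Tμ x - Tν x‖ ^ 2 ∂(uniformProbOn K))
      ≤ ENNReal.ofReal (V⁻¹ * a * cost ^ (1 / 3 : ℝ)) := ENNReal.ofReal_le_ofReal e3
    _ = ENNReal.ofReal (V⁻¹ * a) * ENNReal.ofReal (cost ^ (1 / 3 : ℝ)) :=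
        ENNReal.ofReal_mul (by positivity)
    _ = (Real.toNNReal (V⁻¹ * a) : ℝ≥0∞) * ENNReal.ofReal cost ^ (1 / 3 : ℝ) := by
        rw [ENNReal.ofReal_rpow_of_nonneg hcost0 (by norm_num)]
        rfl

end Crest.Agent.Helper26.OT
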