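import Mathlib

/-!
# Row 82 (S0109), package D (safety copy of the core chain), part 1:
a.e. limit of a sequence of maps with a geometric `L²` Cauchy rate.
-/

set_option autoImplicit false
open MeasureTheory Filter Topology
open scoped ENNReal NNReal

namespace Crest.Agent.Helper26.OT

/-- A sequence of measurable maps whose squared `L²` distances decay geometrically has a
measurable a.e. limit. -/
theorem exists_ae_limit_of_geometric_sq_rate {Ω : Type*} [MeasurableSpace Ω] (ρ : Measure Ω)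
    {d : ℕ} (S : ℕ → Ω → EuclideanSpace ℝ (Fin d)) (hS : ∀ n, Measurable (S n))
    (hint : ∀ n m, Integrable (fun x => ‖S n x - S m x‖ ^ 2) ρ) (a r : ℝ) (ha : 0 ≤ a)
    (hr0 : 0 ≤ r) (hr1 : r < 1)
    (hrate : ∀ N n m : ℕ, N ≤ n → N ≤ m → ∫ x, ‖S n x - S m x‖ ^ 2 ∂ρ ≤ a * r ^ N) :
    ∃ S' : Ω → EuclideanSpace ℝ (Fin d), Measurable S' ∧
      ∀ᵐ x ∂ρ, Tendsto (fun n => S n x) atTop (𝓝 (S' x)) := by
  have hsr0 : 0 ≤ Real.sqrt r := Real.sqrt_nonneg r
  have hsr1 : Real.sqrt r < 1 := by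
    rw [Real.sqrt_lt' one_pos]; simpa using hr1
  set b : ℕ → ℝ := fun N => Real.sqrt a * Real.sqrt r ^ N + (1 / 2 : ℝ) ^ N with hb
  have hb0 : ∀ N, 0 ≤ b N := fun N => by positivity
  have hbsum : Summable b :=
    ((summable_geometric_of_lt_one hsr0 hsr1).mul_left _).add
      (summable_geometric_of_lt_one (by norm_num) (by norm_num))
  have hB : ∑' N, ENNReal.ofReal (b N) ≠ ∞ := by
    rw [← ENNReal.ofReal_tsum_of_nonneg hb0 hbsum]
    exact ENNReal.ofReal_ne_top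
  have hcau : ∀ N n m : ℕ, N ≤ n → N ≤ m →
      eLpNorm (S n - S m) 2 ρ < ENNReal.ofReal (b N) := by
    intro N n m hn hm
    have hmeas : AEStronglyMeasurable (S n - S m) ρ :=
      ((hS n).sub (hS m)).aestronglyMeasurable
    have hmem : MemLp (S n - S m) 2 ρ :=
      (memLp_two_iff_integrable_sq_norm hmeas).mpr (by simpa using hint n m)
    rw [hmem.eLpNorm_eq_integral_rpow_norm two_ne_zero ENNReal.ofNat_ne_top]
    have h7 : (0 : ℝ) < (1 / 2 : ℝ) ^ N := by positivity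
    have h8 : (0 : ℝ) ≤ Real.sqrt a * Real.sqrt r ^ N := by positivity
    refine (ENNReal.ofReal_lt_ofReal_iff (by simp only [hb]; linarith)).mpr ?_
    · have h2 : (2 : ℝ≥0∞).toReal = 2 := by simp
      rw [h2]
      have h3 : ∫ x, ‖(S n - S m) x‖ ^ (2 : ℝ) ∂ρ = ∫ x, ‖S n x - S m x‖ ^ 2 ∂ρ := by
        refine integral_congr_ae (Eventually.of_forall fun x => ?_)
        simp only [Pi.sub_apply]
        exact Real.rpow_two _
      rw [h3]
      have h4 := hrate N n m hn hm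
      have h5 : 0 ≤ ∫ x, ‖S n x - S m x‖ ^ 2 ∂ρ := integral_nonneg fun x => by positivity
      have h6 : (∫ x, ‖S n x - S m x‖ ^ 2 ∂ρ) ^ (2 : ℝ)⁻¹ ≤ Real.sqrt a * Real.sqrt r ^ N := by
        have h61 : (∫ x, ‖S n x - S m x‖ ^ 2 ∂ρ) ^ (2 : ℝ)⁻¹
            = Real.sqrt (∫ x, ‖S n x - S m x‖ ^ 2 ∂ρ) := by
          rw [Real.sqrt_eq_rpow]; norm_num
        rw [h61, Real.sqrt_le_iff]
        refine ⟨h8, h4.trans (le_of_eq ?_)⟩
        rw [mul_pow, Real.sq_sqrt ha, ← pow_mul, mul_comm N 2, pow_mul, Real.sq_sqrt hr0]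
      simp only [hb]
      linarith
  have hae := MeasureTheory.Lp.ae_tendsto_of_cauchy_eLpNorm (fun n => (hS n).aestronglyMeasurable)
    (by norm_num : (1 : ℝ≥0∞) ≤ 2) hB hcau
  exact measurable_limit_of_tendsto_metrizable_ae (fun n => (hS n).aemeasurable) hae

end Crest.Agent.Helper26.OT
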