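import Crest.Agent.Helper26.OT.ChainPot

/-!
# Row 82 (S0109), package D (safety copy of the core chain), part 3: the limit map and the
identification of optimal maps as subgradient selections of the limit potential.
-/

set_option autoImplicit false
open MeasureTheory Filter Topology
open scoped ENNReal NNReal
open Crest.AnalysisR.OT Crest.Agent.Helper66.OT

namespace Crest.Agent.Helper26.OT

section
variable {d : ℕ} {K Y : Set (EuclideanSpace ℝ (Fin d))} {M C₁ CA : ℝ}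
  {pot : Measure (EuclideanSpace ℝ (Fin d)) → EuclideanSpace ℝ (Fin d) → ℝ}
  {lag : Measure (EuclideanSpace ℝ (Fin d)) → EuclideanSpace ℝ (Fin d) →
    EuclideanSpace ℝ (Fin d)}

/-- Geometric `L²(ρ)` rate of the quantised Laguerre maps. -/
theorem lag_sq_rate (hKc : IsCompact K) (hKi : (interior K).Nonempty) (hA : InterpA K M CA)
    (hCA : 0 ≤ CA) (hDT : DiscreteTheory K M C₁ pot lag) (hC₁ : 0 ≤ C₁) (hM0 : 0 ≤ M)
    (hM : ∀ y ∈ Y, ‖y‖ ≤ M) (μ : Measure (EuclideanSpace ℝ (Fin d))) [IsProbabilityMeasure μ]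
    (hμY : μ Yᶜ = 0) (q : ℕ → SimpleFunc (EuclideanSpace ℝ (Fin d)) (EuclideanSpace ℝ (Fin d)))
    (hqY : ∀ n x, q n x ∈ Y) (hqε : ∀ n, ∀ y ∈ Y, dist (q n y) y ≤ (1 / 8 : ℝ) ^ n)
    (N n m : ℕ) (hn : N ≤ n) (hm : N ≤ m) :
    ∫ x, ‖lag (μ.map (q n)) x - lag (μ.map (q m)) x‖ ^ 2 ∂(uniformProbOn K)
      ≤ ((volume K).toReal⁻¹ * CA * (4 * (volume K).toReal * C₁) ^ (1 / 3 : ℝ))
        * (1 / 4 : ℝ) ^ N := by
  set V := (volume K).toReal with hVdef
  have hV : 0 < V := ENNReal.toReal_pos (volK_ne_zero hKi) (volK_ne_top hKc)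
  have hprops : ∀ k, _ := fun k => hDT.simple_props μ (q k) (fun ω => hM _ (hqY k ω))
  have hcont : ∀ k, ContinuousOn (pot (μ.map (q k))) K := fun k =>
    continuousOn_of_abs_sub_le hM0 (abs_sub_le_of_subgrad (hprops k).2.2.1 (hprops k).2.2.2.1)
  have hI := hA (pot (μ.map (q n))) (pot (μ.map (q m))) (lag (μ.map (q n)))
    (lag (μ.map (q m))) (hcont n) (hcont m) (hprops n).1 (hprops m).1
    (ae_restrict_of_forall_mem hKc.measurableSet (hprops n).2.2.1)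
    (ae_restrict_of_forall_mem hKc.measurableSet (hprops m).2.2.1)
    (ae_restrict_of_forall_mem hKc.measurableSet (hprops n).2.2.2.1)
    (ae_restrict_of_forall_mem hKc.measurableSet (hprops m).2.2.2.1)
  have h1 : ∫ x in K, (pot (μ.map (q n)) x - pot (μ.map (q m)) x) ^ 2
      = V * ∫ x, (pot (μ.map (q n)) x - pot (μ.map (q m)) x) ^ 2 ∂(uniformProbOn K) :=
    setIntegral_eq_rho hKc hKi _
  have hrate := pot_sq_rate hDT hC₁ hM μ hμY q hqY hqε n m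
  have h8 : ∀ k, N ≤ k → (1 / 8 : ℝ) ^ k ≤ (1 / 8 : ℝ) ^ N := fun k hk =>
    pow_le_pow_of_le_one (by norm_num) (by norm_num) hk
  have hn8 := h8 n hn
  have hm8 := h8 m hm
  have hn0 : (0 : ℝ) < (1 / 8 : ℝ) ^ n := by positivity
  have hm0 : (0 : ℝ) < (1 / 8 : ℝ) ^ m := by positivity
  have h64 : ((1 / 8 : ℝ) ^ N) ^ 2 = ((1 / 4 : ℝ) ^ N) ^ 3 := by
    rw [← pow_mul, ← pow_mul, mul_comm N 2, mul_comm N 3, pow_mul, pow_mul]
    norm_num
  have h5 : ((1 / 8 : ℝ) ^ n + (1 / 8 : ℝ) ^ m) ^ 2 ≤ 4 * ((1 / 4 : ℝ) ^ N) ^ 3 := by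
    rw [← h64]; nlinarith
  have h6 : ∫ x in K, (pot (μ.map (q n)) x - pot (μ.map (q m)) x) ^ 2
      ≤ (4 * V * C₁) * ((1 / 4 : ℝ) ^ N) ^ 3 := by
    rw [h1]
    calc V * ∫ x, (pot (μ.map (q n)) x - pot (μ.map (q m)) x) ^ 2 ∂(uniformProbOn K)
        ≤ V * (C₁ * ((1 / 8 : ℝ) ^ n + (1 / 8 : ℝ) ^ m) ^ 2) :=
          mul_le_mul_of_nonneg_left hrate hV.le
      _ ≤ V * (C₁ * (4 * ((1 / 4 : ℝ) ^ N) ^ 3)) := by gcongr
      _ = (4 * V * C₁) * ((1 / 4 : ℝ) ^ N) ^ 3 := by ring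
  have h7 : 0 ≤ ∫ x in K, (pot (μ.map (q n)) x - pot (μ.map (q m)) x) ^ 2 :=
    integral_nonneg fun x => sq_nonneg _
  have h9 : (∫ x in K, (pot (μ.map (q n)) x - pot (μ.map (q m)) x) ^ 2) ^ (1 / 3 : ℝ)
      ≤ (4 * V * C₁) ^ (1 / 3 : ℝ) * (1 / 4 : ℝ) ^ N := by
    calc (∫ x in K, (pot (μ.map (q n)) x - pot (μ.map (q m)) x) ^ 2) ^ (1 / 3 : ℝ)
        ≤ ((4 * V * C₁) * ((1 / 4 : ℝ) ^ N) ^ 3) ^ (1 / 3 : ℝ) :=
          Real.rpow_le_rpow h7 h6 (by norm_num)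
      _ = (4 * V * C₁) ^ (1 / 3 : ℝ) * (((1 / 4 : ℝ) ^ N) ^ 3) ^ (1 / 3 : ℝ) :=
          Real.mul_rpow (by positivity) (by positivity)
      _ = (4 * V * C₁) ^ (1 / 3 : ℝ) * (1 / 4 : ℝ) ^ N := by
          congr 1
          have := Real.pow_rpow_inv_natCast (show (0 : ℝ) ≤ (1 / 4 : ℝ) ^ N by positivity)
            (show (3 : ℕ) ≠ 0 by norm_num)
          have e : ((3 : ℕ) : ℝ)⁻¹ = (1 / 3 : ℝ) := by norm_num
          rw [e] at this
          exact this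
  rw [rho_integral]
  calc V⁻¹ * ∫ x in K, ‖lag (μ.map (q n)) x - lag (μ.map (q m)) x‖ ^ 2
      ≤ V⁻¹ * (CA * (∫ x in K, (pot (μ.map (q n)) x - pot (μ.map (q m)) x) ^ 2)
          ^ (1 / 3 : ℝ)) := mul_le_mul_of_nonneg_left hI (inv_nonneg.mpr hV.le)
    _ ≤ V⁻¹ * (CA * ((4 * V * C₁) ^ (1 / 3 : ℝ) * (1 / 4 : ℝ) ^ N)) := by gcongr
    _ = (V⁻¹ * CA * (4 * V * C₁) ^ (1 / 3 : ℝ)) * (1 / 4 : ℝ) ^ N := by ring

/-- **The limit potential of a measure.** For `μ` carried by `Y` there is a potential `φ`,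
continuous on `K`, which is the uniform limit on `K` of the quantised potentials
`pot (μ.map (q n))`, and of which every quadratic optimal map from `uniformProbOn K` to `μ` is
an a.e. subgradient selection. -/
theorem exists_limit_potential (hKc : IsCompact K) (hKv : Convex ℝ K)
    (hKi : (interior K).Nonempty) (hYc : IsCompact Y) (hA : InterpA K M CA) (hCA : 0 ≤ CA)
    (hDT : DiscreteTheory K M C₁ pot lag) (hC₁ : 0 ≤ C₁) (hM0 : 0 ≤ M)
    (hM : ∀ y ∈ Y, ‖y‖ ≤ M)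
    (q : ℕ → SimpleFunc (EuclideanSpace ℝ (Fin d)) (EuclideanSpace ℝ (Fin d)))
    (hqY : ∀ n x, q n x ∈ Y) (hqε : ∀ n, ∀ y ∈ Y, dist (q n y) y ≤ (1 / 8 : ℝ) ^ n)
    (μ : Measure (EuclideanSpace ℝ (Fin d))) (hμ : IsProbabilityOn Y μ) :
    ∃ φ : EuclideanSpace ℝ (Fin d) → ℝ, ContinuousOn φ K ∧
      (∀ η > 0, ∃ N₀ : ℕ, ∀ n ≥ N₀, ∀ x ∈ K, |pot (μ.map (q n)) x - φ x| ≤ η) ∧
      ∀ T : EuclideanSpace ℝ (Fin d) → EuclideanSpace ℝ (Fin d),
        IsOptimalMap (uniformProbOn K) μ T →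
        ∀ᵐ x ∂(uniformProbOn K), ∀ z ∈ K, φ x + inner ℝ (T x) (z - x) ≤ φ z := by
  have hμp : IsProbabilityMeasure μ := hμ.1
  have hμY : μ Yᶜ = 0 := hμ.2
  have hρ : IsProbabilityMeasure (uniformProbOn K) := rho_prob hKc hKi
  obtain ⟨φ, hφlip, hφunif, hφlim⟩ :=
    exists_limit_pot hKc hKv hKi hDT hC₁ hM0 hM μ hμY q hqY hqε
  have hφc : ContinuousOn φ K := continuousOn_of_abs_sub_le hM0 hφlip
  refine ⟨φ, hφc, hφunif, ?_⟩
  have hprops : ∀ k, _ := fun k => hDT.simple_props μ (q k) (fun ω => hM _ (hqY k ω))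
  -- the a.e. limit of the Laguerre maps
  have hint : ∀ n m, Integrable
      (fun x => ‖lag (μ.map (q n)) x - lag (μ.map (q m)) x‖ ^ 2) (uniformProbOn K) := by
    intro n m
    have hmeas : Measurable fun x => ‖lag (μ.map (q n)) x - lag (μ.map (q m)) x‖ ^ 2 :=
      (((hprops n).1.sub (hprops m).1).norm).pow_const 2
    refine Integrable.of_bound hmeas.aestronglyMeasurable ((2 * M) ^ 2) ?_
    filter_upwards [rho_ae_mem hKc] with x hx
    rw [Real.norm_eq_abs, abs_of_nonneg (by positivity)]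
    have h1 : ‖lag (μ.map (q n)) x - lag (μ.map (q m)) x‖ ≤ 2 * M := by
      calc ‖lag (μ.map (q n)) x - lag (μ.map (q m)) x‖
          ≤ ‖lag (μ.map (q n)) x‖ + ‖lag (μ.map (q m)) x‖ := norm_sub_le _ _
        _ ≤ 2 * M := by
          have := (hprops n).2.2.1 x hx
          have := (hprops m).2.2.1 x hx
          linarith
    exact pow_le_pow_left₀ (norm_nonneg _) h1 2
  have hV : 0 < (volume K).toReal := ENNReal.toReal_pos (volK_ne_zero hKi) (volK_ne_top hKc)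
  obtain ⟨S', hS'm, hS'lim⟩ := exists_ae_limit_of_geometric_sq_rate (uniformProbOn K)
    (fun n => lag (μ.map (q n))) (fun n => (hprops n).1) hint
    ((volume K).toReal⁻¹ * CA * (4 * (volume K).toReal * C₁) ^ (1 / 3 : ℝ)) (1 / 4)
    (by positivity) (by norm_num) (by norm_num)
    (fun N n m hn hm => lag_sq_rate hKc hKi hA hCA hDT hC₁ hM0 hM μ hμY q hqY hqε N n m hn hm)
  -- `S'` is an a.e. subgradient selection of `φ`
  have hS'sub : ∀ᵐ x ∂(uniformProbOn K), ∀ z ∈ K, φ x + inner ℝ (S' x) (z - x) ≤ φ z := by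
    filter_upwards [rho_ae_mem hKc, hS'lim] with x hxK hx z hz
    have h1 : Tendsto (fun n => pot (μ.map (q n)) x + inner ℝ (lag (μ.map (q n)) x) (z - x))
        atTop (𝓝 (φ x + inner ℝ (S' x) (z - x))) :=
      (hφlim x hxK).add (hx.inner tendsto_const_nhds)
    exact le_of_tendsto_of_tendsto' h1 (hφlim z hz) (fun n => (hprops n).2.2.2.1 x hxK z hz)
  -- `S'` pushes `ρ` to `μ`
  have hpush : (uniformProbOn K).map S' = μ := by
    refine map_eq_of_tendsto_ae (uniformProbOn K) μ Y hμY (fun n => lag (μ.map (q n))) S'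
      (fun n => (hprops n).1) hS'm (fun n => q n) (fun n => (q n).measurable) ?_
      (fun n => (hprops n).2.1) hS'lim
    intro y hy
    rw [tendsto_iff_dist_tendsto_zero]
    exact squeeze_zero (fun n => dist_nonneg) (fun n => hqε n y hy)
      (tendsto_pow_atTop_nhds_zero_of_lt_one (by norm_num) (by norm_num))
  intro T hT
  exact optimal_is_subgradient K hKc hKv hKi Y hYc μ hμ φ hφc S' T hS'm hpush hS'sub hT

end

end Crest.Agent.Helper26.OT
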