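import Mathlib
import Crest.Prelude.Def_QuadraticTransport

/-!
# Row 82 (S0109), package D, leaf D5: identification of a push-forward in the limit.

If `ρ.map (S n) = μ.map (Q n)`, `S n → S∞` `ρ`-a.e. and `Q n y → y` for `y` in a set `Y`
carrying `μ`, then `ρ.map S∞ = μ`.
-/

set_option autoImplicit false
open MeasureTheory Filter Topology
open scoped ENNReal NNReal BoundedContinuousFunction

namespace Crest.Agent.Helper66.OT

/-- **D5 (push-forward in the limit).** -/
theorem map_eq_of_tendsto_ae {Ω Ω' : Type*} [MeasurableSpace Ω] [MeasurableSpace Ω']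
    [TopologicalSpace Ω'] [HasOuterApproxClosed Ω'] [BorelSpace Ω']
    (ρ : Measure Ω) (μ : Measure Ω') [IsFiniteMeasure ρ] [IsFiniteMeasure μ]
    (Y : Set Ω') (hμY : μ Yᶜ = 0) (S : ℕ → Ω → Ω') (Sinf : Ω → Ω')
    (hS : ∀ n, Measurable (S n)) (hSinf : Measurable Sinf) (Q : ℕ → Ω' → Ω')
    (hQ : ∀ n, Measurable (Q n)) (hQlim : ∀ y ∈ Y, Tendsto (fun n => Q n y) atTop (𝓝 y))
    (hpush : ∀ n, ρ.map (S n) = μ.map (Q n))
    (hlim : ∀ᵐ x ∂ρ, Tendsto (fun n => S n x) atTop (𝓝 (Sinf x))) : ρ.map Sinf = μ := by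
  have : IsFiniteMeasure (ρ.map Sinf) := Measure.isFiniteMeasure_map ρ Sinf
  refine ext_of_forall_integral_eq_of_IsFiniteMeasure (fun f => ?_)
  rw [integral_map hSinf.aemeasurable f.continuous.aestronglyMeasurable]
  have h1 : Tendsto (fun n => ∫ x, f (S n x) ∂ρ) atTop (𝓝 (∫ x, f (Sinf x) ∂ρ)) := by
    refine tendsto_integral_of_dominated_convergence (fun _ => ‖f‖)
      (fun n => (f.continuous.measurable.comp (hS n)).aestronglyMeasurable)
      (integrable_const _) (fun n => Eventually.of_forall fun x => f.norm_coe_le_norm _) ?_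
    filter_upwards [hlim] with x hx
    exact (f.continuous.tendsto _).comp hx
  have h2 : Tendsto (fun n => ∫ y, f (Q n y) ∂μ) atTop (𝓝 (∫ y, f y ∂μ)) := by
    refine tendsto_integral_of_dominated_convergence (fun _ => ‖f‖)
      (fun n => (f.continuous.measurable.comp (hQ n)).aestronglyMeasurable)
      (integrable_const _) (fun n => Eventually.of_forall fun x => f.norm_coe_le_norm _) ?_
    have hY : ∀ᵐ y ∂μ, y ∈ Y := by
      rw [ae_iff]
      exact hμY
    filter_upwards [hY] with y hy
    exact (f.continuous.tendsto _).comp (hQlim y hy)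
  have h3 : ∀ n, ∫ x, f (S n x) ∂ρ = ∫ y, f (Q n y) ∂μ := by
    intro n
    rw [← integral_map (hS n).aemeasurable f.continuous.aestronglyMeasurable, hpush n,
      integral_map (hQ n).aemeasurable f.continuous.aestronglyMeasurable]
  simp only [h3] at h1
  exact tendsto_nhds_unique h1 h2

end Crest.Agent.Helper66.OT
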