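import Crest.Agent.Helper66.OT.Disc
import Crest.Agent.Helper66.OT.Quant
import Crest.Agent.Helper8.OT.OptSub
import Crest.Agent.Helper26.OT.SupFromL2
import Crest.Agent.Helper26.OT.PushLimit
import Crest.Agent.Helper26.OT.ChainLimit

/-!
# Row 82 (S0109), package D (safety copy of the core chain), part 2: the limit potential.

For a probability measure `μ` carried by the compact set `Y` and quantisers `q n` of mesh
`(1/8)^n`, the potentials `pot (μ.map (q n))` converge uniformly on `K` to a continuous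
potential `φ`, and every quadratic optimal map from `uniformProbOn K` to `μ` is an a.e.
subgradient selection of `φ` (`exists_limit_potential`).
-/

set_option autoImplicit false
open MeasureTheory Filter Topology
open scoped ENNReal NNReal
open Crest.AnalysisR.OT Crest.Agent.Helper66.OT

namespace Crest.Agent.Helper26.OT

section
variable {d : ℕ} {K Y : Set (EuclideanSpace ℝ (Fin d))} {M C₁ CA : ℝ}
  {pot : Measure (EuclideanSpace ℝ (Fin d)) → EuclideanSpace ℝ (Fin d) → ℝ}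
  {lag : Measure (EuclideanSpace ℝ (Fin d)) → EuclideanSpace ℝ (Fin d) →
    EuclideanSpace ℝ (Fin d)}

/-- A function with a bounded subgradient selection on `K` is Lipschitz on `K`. -/
theorem abs_sub_le_of_subgrad {φ : EuclideanSpace ℝ (Fin d) → ℝ}
    {S : EuclideanSpace ℝ (Fin d) → EuclideanSpace ℝ (Fin d)} (hb : ∀ x ∈ K, ‖S x‖ ≤ M)
    (hs : ∀ x ∈ K, ∀ z ∈ K, φ x + inner ℝ (S x) (z - x) ≤ φ z) :
    ∀ x ∈ K, ∀ z ∈ K, |φ x - φ z| ≤ M * ‖x - z‖ := by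
  intro x hx z hz
  have h1 := hs x hx z hz
  have h2 := hs z hz x hx
  have h3 : -(M * ‖x - z‖) ≤ inner ℝ (S x) (z - x) := by
    have ha := abs_real_inner_le_norm (S x) (z - x)
    have hn : ‖z - x‖ = ‖x - z‖ := norm_sub_rev z x
    have hb' := hb x hx
    have := (abs_le.mp ha).1
    rw [hn] at this
    nlinarith [norm_nonneg (x - z), norm_nonneg (S x)]
  have h4 : -(M * ‖x - z‖) ≤ inner ℝ (S z) (x - z) := by
    have ha := abs_real_inner_le_norm (S z) (x - z)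
    have hb' := hb z hz
    have := (abs_le.mp ha).1
    nlinarith [norm_nonneg (x - z), norm_nonneg (S z)]
  rw [abs_le]
  constructor <;> linarith

theorem continuousOn_of_abs_sub_le (hM0 : 0 ≤ M) {φ : EuclideanSpace ℝ (Fin d) → ℝ}
    (h : ∀ x ∈ K, ∀ z ∈ K, |φ x - φ z| ≤ M * ‖x - z‖) : ContinuousOn φ K := by
  have : LipschitzOnWith ⟨M, hM0⟩ φ K := by
    refine LipschitzOnWith.of_dist_le_mul fun x hx z hz => ?_
    rw [Real.dist_eq, dist_eq_norm]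
    exact h x hx z hz
  exact this.continuousOn

/-- Two quantisers of a probability measure carried by `Y`: `L²` distance. -/
theorem integral_quant_sq_le (μ : Measure (EuclideanSpace ℝ (Fin d))) [IsProbabilityMeasure μ]
    (hμY : μ Yᶜ = 0) (q q' : SimpleFunc (EuclideanSpace ℝ (Fin d)) (EuclideanSpace ℝ (Fin d)))
    (ε ε' : ℝ) (hq : ∀ y ∈ Y, dist (q y) y ≤ ε)
    (hq' : ∀ y ∈ Y, dist (q' y) y ≤ ε') :
    ∫ y, ‖q y - q' y‖ ^ 2 ∂μ ≤ (ε + ε') ^ 2 := by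
  have hY : ∀ᵐ y ∂μ, y ∈ Y := by rw [ae_iff]; exact hμY
  have hle : ∀ᵐ y ∂μ, ‖q y - q' y‖ ^ 2 ≤ (ε + ε') ^ 2 := by
    filter_upwards [hY] with y hy
    have h1 : ‖q y - q' y‖ ≤ ε + ε' := by
      rw [← dist_eq_norm]
      calc dist (q y) (q' y) ≤ dist (q y) y + dist y (q' y) := dist_triangle _ _ _
        _ ≤ ε + ε' := by
          rw [dist_comm y (q' y)]
          exact add_le_add (hq y hy) (hq' y hy)
    exact pow_le_pow_left₀ (norm_nonneg _) h1 2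
  have hmeas : Measurable fun y => ‖q y - q' y‖ ^ 2 :=
    ((q.measurable.sub q'.measurable).norm).pow_const 2
  have hint : Integrable (fun y => ‖q y - q' y‖ ^ 2) μ := by
    refine Integrable.of_bound hmeas.aestronglyMeasurable ((ε + ε') ^ 2) ?_
    filter_upwards [hle] with y hy
    rw [Real.norm_eq_abs, abs_of_nonneg (by positivity)]
    exact hy
  calc ∫ y, ‖q y - q' y‖ ^ 2 ∂μ ≤ ∫ _y, (ε + ε') ^ 2 ∂μ :=
        integral_mono_ae hint (integrable_const _) hle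
    _ = (ε + ε') ^ 2 := by simp

/-- `L²` rate of the quantised potentials. -/
theorem pot_sq_rate (hDT : DiscreteTheory K M C₁ pot lag) (hC₁ : 0 ≤ C₁)
    (hM : ∀ y ∈ Y, ‖y‖ ≤ M) (μ : Measure (EuclideanSpace ℝ (Fin d))) [IsProbabilityMeasure μ]
    (hμY : μ Yᶜ = 0) (q : ℕ → SimpleFunc (EuclideanSpace ℝ (Fin d)) (EuclideanSpace ℝ (Fin d)))
    (hqY : ∀ n x, q n x ∈ Y) (hqε : ∀ n, ∀ y ∈ Y, dist (q n y) y ≤ (1 / 8 : ℝ) ^ n)
    (n m : ℕ) :
    ∫ x, (pot (μ.map (q n)) x - pot (μ.map (q m)) x) ^ 2 ∂(uniformProbOn K)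
      ≤ C₁ * ((1 / 8 : ℝ) ^ n + (1 / 8 : ℝ) ^ m) ^ 2 := by
  have key := hDT.simple_bound μ ((q n).pair (q m))
    (fun ω => ⟨hM _ (hqY n ω), hM _ (hqY m ω)⟩)
  have e1 : (fun ω => (((q n).pair (q m)) ω).1) = ⇑(q n) := by
    funext ω; simp [SimpleFunc.pair_apply]
  have e2 : (fun ω => (((q n).pair (q m)) ω).2) = ⇑(q m) := by
    funext ω; simp [SimpleFunc.pair_apply]
  rw [e1, e2] at key
  refine key.trans (mul_le_mul_of_nonneg_left ?_ hC₁)
  have := integral_quant_sq_le μ hμY (q n) (q m) ((1 / 8 : ℝ) ^ n) ((1 / 8 : ℝ) ^ m)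
    (hqε n) (hqε m)
  simpa [SimpleFunc.pair_apply] using this

/-- The quantised potentials are uniformly Cauchy on `K`. -/
theorem pot_unif_cauchy (hKc : IsCompact K) (hKv : Convex ℝ K) (hKi : (interior K).Nonempty)
    (hDT : DiscreteTheory K M C₁ pot lag) (hC₁ : 0 ≤ C₁) (hM0 : 0 ≤ M)
    (hM : ∀ y ∈ Y, ‖y‖ ≤ M) (μ : Measure (EuclideanSpace ℝ (Fin d))) [IsProbabilityMeasure μ]
    (hμY : μ Yᶜ = 0) (q : ℕ → SimpleFunc (EuclideanSpace ℝ (Fin d)) (EuclideanSpace ℝ (Fin d)))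
    (hqY : ∀ n x, q n x ∈ Y) (hqε : ∀ n, ∀ y ∈ Y, dist (q n y) y ≤ (1 / 8 : ℝ) ^ n)
    (η : ℝ) (hη : 0 < η) :
    ∃ N₀ : ℕ, ∀ n ≥ N₀, ∀ m ≥ N₀, ∀ x ∈ K,
      |pot (μ.map (q n)) x - pot (μ.map (q m)) x| < η := by
  obtain ⟨δ, hδ, hD2⟩ := lipschitz_sup_lt_of_sq_integral_lt K hKc hKv hKi (2 * M + 1)
    (by linarith) η hη
  obtain ⟨N₀, hN₀⟩ := exists_pow_lt_of_lt_one (show 0 < δ / (4 * C₁ + 1) by positivity)
    (show (1 / 8 : ℝ) < 1 by norm_num)
  refine ⟨N₀, fun n hn m hm => ?_⟩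
  have hprops : ∀ k, _ := fun k => hDT.simple_props μ (q k) (fun ω => hM _ (hqY k ω))
  have hlip : ∀ k, ∀ x ∈ K, ∀ z ∈ K,
      |pot (μ.map (q k)) x - pot (μ.map (q k)) z| ≤ M * ‖x - z‖ := fun k =>
    abs_sub_le_of_subgrad (hprops k).2.2.1 (hprops k).2.2.2.1
  refine hD2 (fun x => pot (μ.map (q n)) x - pot (μ.map (q m)) x) ?_ ?_
  · intro x hx z hz
    have h1 := hlip n x hx z hz
    have h2 := hlip m x hx z hz
    have h3 : |pot (μ.map (q n)) x - pot (μ.map (q m)) x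
        - (pot (μ.map (q n)) z - pot (μ.map (q m)) z)|
        ≤ |pot (μ.map (q n)) x - pot (μ.map (q n)) z|
          + |pot (μ.map (q m)) x - pot (μ.map (q m)) z| := by
      have : pot (μ.map (q n)) x - pot (μ.map (q m)) x
          - (pot (μ.map (q n)) z - pot (μ.map (q m)) z)
          = (pot (μ.map (q n)) x - pot (μ.map (q n)) z)
            - (pot (μ.map (q m)) x - pot (μ.map (q m)) z) := by ring
      rw [this]
      exact abs_sub _ _
    have h4 : 0 ≤ ‖x - z‖ := norm_nonneg _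
    nlinarith
  · have hrate := pot_sq_rate hDT hC₁ hM μ hμY q hqY hqε n m
    have h8 : ∀ k, N₀ ≤ k → (1 / 8 : ℝ) ^ k ≤ (1 / 8 : ℝ) ^ N₀ := fun k hk =>
      pow_le_pow_of_le_one (by norm_num) (by norm_num) hk
    have hn8 := h8 n hn
    have hm8 := h8 m hm
    have ht0 : (0 : ℝ) < (1 / 8 : ℝ) ^ N₀ := by positivity
    have ht1 : (1 / 8 : ℝ) ^ N₀ ≤ 1 := pow_le_one₀ (by norm_num) (by norm_num)
    have hn0 : (0 : ℝ) < (1 / 8 : ℝ) ^ n := by positivity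
    have hm0 : (0 : ℝ) < (1 / 8 : ℝ) ^ m := by positivity
    have h5 : ((1 / 8 : ℝ) ^ n + (1 / 8 : ℝ) ^ m) ^ 2 ≤ 4 * (1 / 8 : ℝ) ^ N₀ := by nlinarith
    have h6 : C₁ * ((1 / 8 : ℝ) ^ n + (1 / 8 : ℝ) ^ m) ^ 2 ≤ C₁ * (4 * (1 / 8 : ℝ) ^ N₀) :=
      mul_le_mul_of_nonneg_left h5 hC₁
    have h7 : (1 / 8 : ℝ) ^ N₀ * (4 * C₁ + 1) < δ := by
      rwa [lt_div_iff₀ (by positivity)] at hN₀
    nlinarith

/-- The limit potential: uniform limit on `K` of the quantised potentials. -/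
theorem exists_limit_pot (hKc : IsCompact K) (hKv : Convex ℝ K) (hKi : (interior K).Nonempty)
    (hDT : DiscreteTheory K M C₁ pot lag) (hC₁ : 0 ≤ C₁) (hM0 : 0 ≤ M)
    (hM : ∀ y ∈ Y, ‖y‖ ≤ M) (μ : Measure (EuclideanSpace ℝ (Fin d))) [IsProbabilityMeasure μ]
    (hμY : μ Yᶜ = 0) (q : ℕ → SimpleFunc (EuclideanSpace ℝ (Fin d)) (EuclideanSpace ℝ (Fin d)))
    (hqY : ∀ n x, q n x ∈ Y) (hqε : ∀ n, ∀ y ∈ Y, dist (q n y) y ≤ (1 / 8 : ℝ) ^ n) :
    ∃ φ : EuclideanSpace ℝ (Fin d) → ℝ,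
      (∀ x ∈ K, ∀ z ∈ K, |φ x - φ z| ≤ M * ‖x - z‖) ∧
      (∀ η > 0, ∃ N₀ : ℕ, ∀ n ≥ N₀, ∀ x ∈ K, |pot (μ.map (q n)) x - φ x| ≤ η) ∧
      ∀ x ∈ K, Tendsto (fun n => pot (μ.map (q n)) x) atTop (𝓝 (φ x)) := by
  have hcau := pot_unif_cauchy hKc hKv hKi hDT hC₁ hM0 hM μ hμY q hqY hqε
  set φ : EuclideanSpace ℝ (Fin d) → ℝ := fun x => limUnder atTop (fun n => pot (μ.map (q n)) x)
    with hφ
  have hlim : ∀ x ∈ K, Tendsto (fun n => pot (μ.map (q n)) x) atTop (𝓝 (φ x)) := by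
    intro x hx
    have hc : CauchySeq (fun n => pot (μ.map (q n)) x) := by
      rw [Metric.cauchySeq_iff']
      intro ε hε
      obtain ⟨N₀, hN₀⟩ := hcau ε hε
      refine ⟨N₀, fun n hn => ?_⟩
      rw [Real.dist_eq]
      exact hN₀ n hn N₀ le_rfl x hx
    exact CauchySeq.tendsto_limUnder hc
  have hprops : ∀ k, _ := fun k => hDT.simple_props μ (q k) (fun ω => hM _ (hqY k ω))
  refine ⟨φ, ?_, ?_, hlim⟩
  · intro x hx z hz
    have h1 : Tendsto (fun n => |pot (μ.map (q n)) x - pot (μ.map (q n)) z|) atTop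
        (𝓝 |φ x - φ z|) := ((hlim x hx).sub (hlim z hz)).abs
    exact le_of_tendsto h1 (Eventually.of_forall fun n =>
      abs_sub_le_of_subgrad (hprops n).2.2.1 (hprops n).2.2.2.1 x hx z hz)
  · intro η hη
    obtain ⟨N₀, hN₀⟩ := hcau η hη
    refine ⟨N₀, fun n hn x hx => ?_⟩
    have h1 : Tendsto (fun m => |pot (μ.map (q n)) x - pot (μ.map (q m)) x|) atTop
        (𝓝 |pot (μ.map (q n)) x - φ x|) := (tendsto_const_nhds.sub (hlim x hx)).abs
    refine le_of_tendsto h1 ?_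
    filter_upwards [eventually_ge_atTop N₀] with m hm
    exact (hN₀ n hn m hm x hx).le

end

end Crest.Agent.Helper26.OT
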