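import Mathlib
import Crest.Agent.Helper66.OT.Interface

/-!
# Row 82 (S0109), package D, leaves D3 and D4: quantisers and labelled discretisation of a
coupling.

* `exists_quantiser` : a measurable map onto a finite `ε`-net of a compact set `Y`.
* `map_eq_sum_dirac` : the push-forward of a measure under a measurable map with finitely many
  values is a finite sum of point masses.
* `exists_labelled_of_coupling` : the push-forward of a coupling `π` under a pair of quantisers,
  as a labelled configuration `(w, y, z)` in the sense of `discMeasure`.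
-/

set_option autoImplicit false
open MeasureTheory Filter Topology
open scoped ENNReal NNReal

namespace Crest.Agent.Helper66.OT

/-- **D3 (quantiser).** A measurable map `Q` with values in a finite subset `N` of the compact
set `Y` moving the points of `Y` by at most `ε`. -/
theorem exists_quantiser {d : ℕ} (Y : Set (EuclideanSpace ℝ (Fin d))) (hYc : IsCompact Y)
    (hYn : Y.Nonempty) (ε : ℝ) (hε : 0 < ε) :
    ∃ (N : Finset (EuclideanSpace ℝ (Fin d)))
      (Q : EuclideanSpace ℝ (Fin d) → EuclideanSpace ℝ (Fin d)),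
      ↑N ⊆ Y ∧ Measurable Q ∧ (∀ x, Q x ∈ N) ∧ ∀ y ∈ Y, ‖Q y - y‖ ≤ ε := by
  classical
  obtain ⟨t, htY, htfin, hcover⟩ := hYc.finite_cover_balls hε
  obtain ⟨y₀, hy₀⟩ := hYn
  obtain ⟨c₁, hc₁t, -⟩ : ∃ c ∈ t, y₀ ∈ Metric.ball c ε := by
    have := hcover hy₀
    simpa only [Set.mem_iUnion, exists_prop] using this
  set l := htfin.toFinset.toList with hl
  set e : ℕ → EuclideanSpace ℝ (Fin d) := fun k => l.getD k c₁ with he
  have he_mem : ∀ k, e k ∈ t := by
    intro k
    by_cases hk : k < l.length
    · have h1 : e k = l[k] := by simp [he, hk]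
      have h2 : l[k] ∈ l := List.getElem_mem hk
      rw [h1]
      have h3 : l[k] ∈ htfin.toFinset := Finset.mem_toList.mp h2
      exact htfin.mem_toFinset.mp h3
    · have h1 : e k = c₁ := by
        simp only [he]
        exact List.getD_eq_default _ _ (not_lt.mp hk)
      rw [h1]; exact hc₁t
  have he_surj : ∀ c ∈ t, ∃ k ≤ l.length, e k = c := by
    intro c hc
    have h1 : c ∈ l := Finset.mem_toList.mpr (htfin.mem_toFinset.mpr hc)
    obtain ⟨k, hk, hkc⟩ := List.getElem_of_mem h1
    refine ⟨k, hk.le, ?_⟩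
    simp [he, hk, hkc]
  refine ⟨htfin.toFinset, SimpleFunc.nearestPt e l.length, ?_, SimpleFunc.measurable _, ?_, ?_⟩
  · intro c hc
    exact htY (htfin.mem_toFinset.mp (Finset.mem_coe.mp hc))
  · intro x
    have : SimpleFunc.nearestPt e l.length x = e (SimpleFunc.nearestPtInd e l.length x) := rfl
    rw [this]
    exact htfin.mem_toFinset.mpr (he_mem _)
  · intro y hy
    obtain ⟨c, hct, hyc⟩ : ∃ c ∈ t, y ∈ Metric.ball c ε := by
      have := hcover hy
      simpa only [Set.mem_iUnion, exists_prop] using this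
    obtain ⟨k, hk, hkc⟩ := he_surj c hct
    have h1 := SimpleFunc.edist_nearestPt_le e y hk
    rw [edist_dist, edist_dist, ENNReal.ofReal_le_ofReal_iff dist_nonneg, hkc] at h1
    rw [← dist_eq_norm]
    have h2 : dist c y < ε := by rw [dist_comm]; exact Metric.mem_ball.mp hyc
    linarith

/-- The push-forward of a measure under a measurable map with values in a finite set is the
corresponding finite sum of point masses. -/
theorem map_eq_sum_dirac {α β : Type*} [MeasurableSpace α] [MeasurableSpace β]
    [MeasurableSingletonClass β] (π : Measure α) (R : α → β) (hR : Measurable R) (F : Finset β)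
    (hRF : ∀ a, R a ∈ F) : π.map R = ∑ p ∈ F, π (R ⁻¹' {p}) • Measure.dirac p := by
  classical
  ext s hs
  rw [Measure.map_apply hR hs, Measure.coe_finsetSum, Finset.sum_apply]
  simp only [Measure.smul_apply, smul_eq_mul, Measure.dirac_apply' _ hs]
  have hpre : R ⁻¹' s = ⋃ p ∈ F.filter (· ∈ s), R ⁻¹' {p} := by
    ext a
    simp only [Set.mem_preimage, Finset.mem_filter, Set.mem_iUnion, Set.mem_singleton_iff,
      exists_prop]
    constructor
    · intro h; exact ⟨R a, ⟨hRF a, h⟩, rfl⟩
    · rintro ⟨p, ⟨-, hp⟩, rfl⟩; exact hp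
  rw [hpre, measure_biUnion_finset, Finset.sum_filter]
  · refine Finset.sum_congr rfl fun p _ => ?_
    by_cases hps : p ∈ s <;> simp [hps]
  · intro p _ q _ hpq
    refine Set.disjoint_left.mpr fun a ha hb => hpq ?_
    simp only [Set.mem_preimage, Set.mem_singleton_iff] at ha hb
    rw [← ha, ← hb]
  · intro p _
    exact hR (measurableSet_singleton p)

/-- **D4 (labelled discretisation of a coupling).** For a probability measure `π` on `E × E` and
two measurable maps `Q`, `Q'` with finitely many values, the measure `(Q × Q')_* π` is a labelled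
configuration `(w, y, z)` with positive weights of sum one: `discMeasure w y` is the
push-forward of the first marginal under `Q`, `discMeasure w z` that of the second marginal under
`Q'`, and the labelled cost is `∫ ‖Q p.1 - Q' p.2‖² dπ`. -/
theorem exists_labelled_of_coupling {d : ℕ}
    (π : Measure (EuclideanSpace ℝ (Fin d) × EuclideanSpace ℝ (Fin d))) [IsProbabilityMeasure π]
    (N N' : Finset (EuclideanSpace ℝ (Fin d)))
    (Q Q' : EuclideanSpace ℝ (Fin d) → EuclideanSpace ℝ (Fin d)) (hQ : Measurable Q)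
    (hQ' : Measurable Q') (hQN : ∀ x, Q x ∈ N) (hQ'N : ∀ x, Q' x ∈ N') :
    ∃ (ι : Type) (_ : Fintype ι) (w : ι → ℝ) (y z : ι → EuclideanSpace ℝ (Fin d)),
      (∀ i, 0 < w i) ∧ ∑ i, w i = 1 ∧ (∀ i, y i ∈ N) ∧ (∀ i, z i ∈ N') ∧
      discMeasure w y = (π.map Prod.fst).map Q ∧ discMeasure w z = (π.map Prod.snd).map Q' ∧
      ∑ i, w i * ‖y i - z i‖ ^ 2 = ∫ p, ‖Q p.1 - Q' p.2‖ ^ 2 ∂π := by
  classical
  set R : EuclideanSpace ℝ (Fin d) × EuclideanSpace ℝ (Fin d) →
      EuclideanSpace ℝ (Fin d) × EuclideanSpace ℝ (Fin d) := fun q => (Q q.1, Q' q.2) with hRdef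
  have hR : Measurable R := (hQ.comp measurable_fst).prodMk (hQ'.comp measurable_snd)
  have hRF : ∀ a, R a ∈ N ×ˢ N' := fun a => Finset.mem_product.mpr ⟨hQN _, hQ'N _⟩
  set G : Finset (EuclideanSpace ℝ (Fin d) × EuclideanSpace ℝ (Fin d)) :=
    (N ×ˢ N').filter (fun p => π (R ⁻¹' {p}) ≠ 0) with hG
  have hmap : π.map R = ∑ p ∈ G, π (R ⁻¹' {p}) • Measure.dirac p := by
    rw [map_eq_sum_dirac π R hR (N ×ˢ N') hRF, hG, Finset.sum_filter]
    refine Finset.sum_congr rfl fun p _ => ?_
    by_cases hp : π (R ⁻¹' {p}) = 0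
    · simp [hp]
    · simp [hp]
  have hfin : ∀ p, π (R ⁻¹' {p}) ≠ ∞ := fun p => measure_ne_top π _
  have hofReal : ∀ p, ENNReal.ofReal (π (R ⁻¹' {p})).toReal = π (R ⁻¹' {p}) :=
    fun p => ENNReal.ofReal_toReal (hfin p)
  refine ⟨G, inferInstance, fun i => (π (R ⁻¹' {i.1})).toReal, fun i => i.1.1, fun i => i.1.2,
    ?_, ?_, ?_, ?_, ?_, ?_, ?_⟩
  · intro i
    have hi := (Finset.mem_filter.mp i.2).2
    exact ENNReal.toReal_pos hi (hfin _)
  · rw [Finset.sum_coe_sort G (fun p => (π (R ⁻¹' {p})).toReal),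
      ← ENNReal.toReal_sum (fun p _ => hfin p)]
    have h1 : (π.map R) Set.univ = 1 := by
      rw [Measure.map_apply hR MeasurableSet.univ, Set.preimage_univ, measure_univ]
    rw [hmap, Measure.coe_finsetSum, Finset.sum_apply] at h1
    simp only [Measure.smul_apply, smul_eq_mul, measure_univ, mul_one] at h1
    rw [h1, ENNReal.toReal_one]
  · intro i
    exact (Finset.mem_product.mp (Finset.mem_filter.mp i.2).1).1
  · intro i
    exact (Finset.mem_product.mp (Finset.mem_filter.mp i.2).1).2
  · have h1 : (π.map Prod.fst).map Q = (π.map R).map Prod.fst := by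
      rw [Measure.map_map hQ measurable_fst, Measure.map_map measurable_fst hR]
      rfl
    rw [h1, discMeasure]
    ext s hs
    rw [Measure.map_apply measurable_fst hs, hmap]
    simp only [Measure.coe_finsetSum, Finset.sum_apply, Measure.smul_apply, smul_eq_mul,
      hofReal]
    rw [Finset.sum_coe_sort G (fun p => π (R ⁻¹' {p}) * (Measure.dirac p.1) s)]
    refine Finset.sum_congr rfl fun p _ => ?_
    rw [Measure.dirac_apply' _ hs, Measure.dirac_apply' _ (measurable_fst hs)]
    rfl
  · have h1 : (π.map Prod.snd).map Q' = (π.map R).map Prod.snd := by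
      rw [Measure.map_map hQ' measurable_snd, Measure.map_map measurable_snd hR]
      rfl
    rw [h1, discMeasure]
    ext s hs
    rw [Measure.map_apply measurable_snd hs, hmap]
    simp only [Measure.coe_finsetSum, Finset.sum_apply, Measure.smul_apply, smul_eq_mul,
      hofReal]
    rw [Finset.sum_coe_sort G (fun p => π (R ⁻¹' {p}) * (Measure.dirac p.2) s)]
    refine Finset.sum_congr rfl fun p _ => ?_
    rw [Measure.dirac_apply' _ hs, Measure.dirac_apply' _ (measurable_snd hs)]
    rfl
  · have hg : Measurable fun p : EuclideanSpace ℝ (Fin d) × EuclideanSpace ℝ (Fin d) =>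
        ‖p.1 - p.2‖ ^ 2 := by fun_prop
    have h1 : ∫ p, ‖Q p.1 - Q' p.2‖ ^ 2 ∂π = ∫ p, ‖p.1 - p.2‖ ^ 2 ∂(π.map R) := by
      rw [integral_map hR.aemeasurable hg.aestronglyMeasurable]
    rw [h1, hmap, integral_finsetSum_measure]
    · rw [Finset.sum_coe_sort G
        (fun p => (π (R ⁻¹' {p})).toReal * ‖p.1 - p.2‖ ^ 2)]
      refine Finset.sum_congr rfl fun p _ => ?_
      rw [integral_smul_measure, integral_dirac, smul_eq_mul]
    · intro p _
      refine Integrable.smul_measure (integrable_dirac ?_) (hfin p)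
      exact enorm_lt_top

end Crest.Agent.Helper66.OT
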